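import Vale.Agent.P121.Construction

namespace Vale.Agent.Results.P121.NoMongePlan

open MeasureTheory
open Vale.Agent.P121

/-- An absolutely continuous probability measure on three-space with finite three-marginal
Coulomb transport value and no optimal Monge plan. -/
theorem result : ∃ μ : Measure (EuclideanSpace ℝ (Fin 3)),
    IsProbabilityMeasure μ ∧ μ ≪ volume ∧ kantorovich μ < ⊤ ∧
    ¬ ∃ T2 T3 : EuclideanSpace ℝ (Fin 3) → EuclideanSpace ℝ (Fin 3),
      Measurable T2 ∧ Measurable T3 ∧ μ.map T2 = μ ∧ μ.map T3 = μ ∧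
      ∫⁻ x, coulomb x (T2 x) (T3 x) ∂μ = kantorovich μ := by
  obtain ⟨r, hr0, -, hmin⟩ := exists_strict_min
  have hδ0 : 0 < min r (1 / 200) := lt_min hr0 (by norm_num)
  obtain ⟨D⟩ := exists_branch hδ0
  exact Sheets.main (sheets D (min_le_right _ _) (min_le_left _ _) hmin)

end Vale.Agent.Results.P121.NoMongePlan
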